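import Vale.Agent.Lib.P362.Upper.Stmt

/-! P362, upper bound: `D ≤ bs * deg` (part U1, Midrijanis). -/

namespace P362

open Finset

section

variable {V : Type} [DecidableEq V]

theorem altSum_insert (f : (V → Bool) → Bool) (S : Finset V) (i : V) (hi : i ∉ S) (z : V → Bool) :
    altSum f (insert i S) z = altSum f S z - altSum f S (flipS {i} z) := by
  unfold altSum
  rw [Finset.sum_powerset_insert hi, sub_eq_add_neg, ← Finset.sum_neg_distrib]
  congr 1
  refine Finset.sum_congr rfl fun A hA => ?_
  have hiA : i ∉ A := fun h => hi (Finset.mem_powerset.1 hA h)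
  have h1 : flipS (insert i A) z = flipS A (flipS {i} z) := by
    funext v
    by_cases hv : v = i
    · subst hv
      simp [flipS, hiA]
    · simp [flipS, hv]
  rw [h1, Finset.card_insert_of_notMem hiA, pow_succ]
  ring

theorem flipS_single_flipS_single (i : V) (z : V → Bool) : flipS {i} (flipS {i} z) = z := by
  funext v
  simp [flipS]

theorem altSum_flip_mem (f : (V → Bool) → Bool) (S : Finset V) (i : V) (hi : i ∈ S)
    (z : V → Bool) : altSum f S (flipS {i} z) = - altSum f S z := by
  have h := Finset.insert_erase hi
  rw [← h, altSum_insert f _ i (Finset.notMem_erase i S), altSum_insert f _ i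
    (Finset.notMem_erase i S), flipS_single_flipS_single]
  ring

theorem altSum_empty (f : (V → Bool) → Bool) (z : V → Bool) :
    altSum f ∅ z = if f z then 1 else 0 := by
  have h : flipS ∅ z = z := by
    funext v
    simp [flipS]
  simp [altSum, h]

theorem flipS_insert (i : V) (D : Finset V) (hi : i ∉ D) (z : V → Bool) :
    flipS (insert i D) z = flipS {i} (flipS D z) := by
  funext v
  by_cases hv : v = i
  · subst hv
    simp [flipS, hi]
  · simp [flipS, hv]

/-- an alternating sum over a nonempty set of directions which does not vanish gives a sensitive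
block -/
theorem exists_block (f : (V → Bool) → Bool) (M : Finset V) (hM : M.Nonempty) (z : V → Bool)
    (h : altSum f M z ≠ 0) : ∃ A, A ⊆ M ∧ f (flipS A z) ≠ f z := by
  by_contra hc
  push Not at hc
  apply h
  unfold altSum
  have h1 : ∑ A ∈ M.powerset, (-1 : ℤ) ^ A.card * (if f (flipS A z) then 1 else 0) =
      ∑ A ∈ M.powerset, (-1 : ℤ) ^ A.card * (if f z then 1 else 0) :=
    Finset.sum_congr rfl fun A hA => by rw [hc A (Finset.mem_powerset.1 hA)]
  rw [h1, ← Finset.sum_mul, Finset.sum_powerset_neg_one_pow_card_of_nonempty hM, zero_mul]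

/-- `z` agrees with `a` on `K` -/
def Agree (K : Finset V) (a z : V → Bool) : Prop := ∀ v ∈ K, z v = a v

theorem Agree.flip {K : Finset V} {a z : V → Bool} (h : Agree K a z) {D : Finset V}
    (hD : Disjoint D K) : Agree K a (flipS D z) := by
  intro v hv
  have : v ∉ D := fun h' => Finset.disjoint_left.1 hD h' hv
  simp [flipS, this, h v hv]

theorem Agree.exists_flip [Fintype V] {K : Finset V} {a z w : V → Bool} (h : Agree K a z)
    (h' : Agree K a w) : ∃ D : Finset V, Disjoint D K ∧ flipS D z = w := by
  refine ⟨Finset.univ.filter (fun v => z v ≠ w v), ?_, ?_⟩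
  · rw [Finset.disjoint_left]
    intro v hv hK
    exact (Finset.mem_filter.1 hv).2 ((h v hK).trans (h' v hK).symm)
  · funext v
    simp only [flipS, Finset.mem_filter, Finset.mem_univ, true_and]
    cases z v <;> cases w v <;> simp

theorem altSum_ne_of_max [Fintype V] (f : (V → Bool) → Bool) {K M : Finset V} {a z0 : V → Bool}
    (hM : Disjoint M K) (hz0 : Agree K a z0) (h0 : altSum f M z0 ≠ 0)
    (hmax : ∀ S z, Disjoint S K → Agree K a z → altSum f S z ≠ 0 → S.card ≤ M.card)
    {z : V → Bool} (hz : Agree K a z) : altSum f M z ≠ 0 := by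
  obtain ⟨D, hD, rfl⟩ := hz0.exists_flip hz
  clear hz
  induction D using Finset.induction_on with
  | empty =>
    have h : flipS ∅ z0 = z0 := by
      funext v
      simp [flipS]
    rw [h]
    exact h0
  | insert i D hi ih =>
    have hD' : Disjoint D K := Finset.disjoint_of_subset_left (Finset.subset_insert i D) hD
    have hiK : i ∉ K := Finset.disjoint_left.1 hD (Finset.mem_insert_self i D)
    have ih := ih hD'
    rw [flipS_insert i D hi]
    by_cases hiM : i ∈ M
    · rw [altSum_flip_mem f M i hiM]
      exact neg_ne_zero.2 ih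
    · have h1 := altSum_insert f M i hiM (flipS D z0)
      have h2 : altSum f (insert i M) (flipS D z0) = 0 := by
        by_contra hne
        have h3 := hmax (insert i M) (flipS D z0)
          (Finset.disjoint_insert_left.2 ⟨hiK, hM⟩) (hz0.flip hD') hne
        rw [Finset.card_insert_of_notMem hiM] at h3
        omega
      rw [h2] at h1
      intro h4
      rw [h4] at h1
      apply ih
      omega

theorem const_of_altSum [Fintype V] (f : (V → Bool) → Bool) {K : Finset V} {a z0 z : V → Bool}
    (hz0 : Agree K a z0) (hz : Agree K a z)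
    (h : ∀ S z, S.Nonempty → Disjoint S K → Agree K a z → altSum f S z = 0) : f z = f z0 := by
  obtain ⟨D, hD, rfl⟩ := hz0.exists_flip hz
  clear hz
  induction D using Finset.induction_on with
  | empty =>
    have h : flipS ∅ z0 = z0 := by
      funext v
      simp [flipS]
    rw [h]
  | insert i D hi ih =>
    have hD' : Disjoint D K := Finset.disjoint_of_subset_left (Finset.subset_insert i D) hD
    have hiK : i ∉ K := Finset.disjoint_left.1 hD (Finset.mem_insert_self i D)
    have ih := ih hD'
    rw [flipS_insert i D hi, ← ih]
    have h1 := altSum_insert f ∅ i (Finset.notMem_empty i) (flipS D z0)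
    rw [h _ _ (Finset.insert_nonempty i ∅) (by simpa using hiK) (hz0.flip hD'), altSum_empty,
      altSum_empty] at h1
    revert h1
    cases f (flipS {i} (flipS D z0)) <;> cases f (flipS D z0) <;> simp

/-- query all the variables in `M` -/
theorem query_all (g : (V → Bool) → DT V Bool) (D : ℕ) (hD : ∀ b, (g b).depth ≤ D)
    (M : Finset V) : ∀ a : V → Bool, ∃ t : DT V Bool, t.depth ≤ M.card + D ∧
      ∀ x, t.eval x = (g (fun v => if v ∈ M then x v else a v)).eval x := by
  induction M using Finset.induction_on with
  | empty =>
    intro a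
    refine ⟨g a, by simpa using hD a, fun x => ?_⟩
    simp
  | insert i M hi ih =>
    intro a
    obtain ⟨t0, h0, e0⟩ := ih (Function.update a i false)
    obtain ⟨t1, h1, e1⟩ := ih (Function.update a i true)
    refine ⟨DT.node i t0 t1, ?_, fun x => ?_⟩
    · rw [Finset.card_insert_of_notMem hi, DT.depth]
      omega
    · rw [DT.eval]
      by_cases hx : x i = true
      · rw [if_pos hx, e1]
        have : (fun v => if v ∈ M then x v else Function.update a i true v) =
            (fun v => if v ∈ insert i M then x v else a v) := by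
          funext v
          by_cases hv : v = i
          · subst hv
            simp [hi, hx]
          · simp [hv]
        rw [this]
      · rw [if_neg hx, e0]
        have hx' : x i = false := by simpa using hx
        have : (fun v => if v ∈ M then x v else Function.update a i false v) =
            (fun v => if v ∈ insert i M then x v else a v) := by
          funext v
          by_cases hv : v = i
          · subst hv
            simp [hi, hx']
          · simp [hv]
        rw [this]

/-- `j` disjoint sensitive blocks inside `K` -/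
def Blk (f : (V → Bool) → Bool) (K : Finset V) (j : ℕ) (z : V → Bool) : Prop :=
  ∃ B : Fin j → Finset V, (∀ i j, i ≠ j → Disjoint (B i) (B j)) ∧ (∀ i, B i ⊆ K) ∧
    ∀ i, f (flipS (B i) z) ≠ f z

theorem Blk.add {f : (V → Bool) → Bool} {K K' : Finset V} {j : ℕ} {z : V → Bool}
    (h : Blk f K j z) (hK : K ⊆ K') {A : Finset V} (hA : Disjoint A K) (hA' : A ⊆ K')
    (hf : f (flipS A z) ≠ f z) : Blk f K' (j + 1) z := by
  obtain ⟨B, h1, h2, h3⟩ := h
  refine ⟨Fin.cons A B, ?_, ?_, ?_⟩
  · intro i i'
    refine Fin.cases ?_ (fun i => ?_) i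
    · refine Fin.cases (fun h => absurd rfl h) (fun i' _ => ?_) i'
      rw [Fin.cons_zero, Fin.cons_succ]
      exact Finset.disjoint_of_subset_right (h2 i') hA
    · refine Fin.cases (fun _ => ?_) (fun i' h => ?_) i'
      · rw [Fin.cons_zero, Fin.cons_succ]
        exact (Finset.disjoint_of_subset_right (h2 i) hA).symm
      · rw [Fin.cons_succ, Fin.cons_succ]
        exact h1 i i' (fun h' => h (by rw [h']))
  · intro i
    refine Fin.cases ?_ (fun i => ?_) i
    · rw [Fin.cons_zero]
      exact hA'
    · rw [Fin.cons_succ]
      exact (h2 i).trans hK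
  · intro i
    refine Fin.cases ?_ (fun i => ?_) i
    · rw [Fin.cons_zero]
      exact hf
    · rw [Fin.cons_succ]
      exact h3 i

theorem u1_aux [Fintype V] (f : (V → Bool) → Bool) (d s : ℕ)
    (hd : ∀ S x, altSum f S x ≠ 0 → S.card ≤ d) (hs : ∀ x k, BlockSens f x k → k ≤ s) :
    ∀ (k j : ℕ) (K : Finset V) (a : V → Bool), s ≤ j + k → (∀ z, Agree K a z → Blk f K j z) →
      ∃ t : DT V Bool, t.depth ≤ k * d ∧ ∀ z, Agree K a z → t.eval z = f z := by
  classical
  intro k
  induction k with
  | zero =>
    intro j K a hj hB
    refine ⟨DT.leaf (f a), Nat.zero_le _, fun z hz => ?_⟩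
    rw [DT.eval]
    by_contra hne
    have ha : Agree K a a := fun v _ => rfl
    obtain ⟨D, hD, hD'⟩ := hz.exists_flip ha
    have h1 : f (flipS D z) ≠ f z := by rw [hD']; exact hne
    obtain ⟨B, h2, _, h3⟩ := (hB z hz).add (Finset.subset_univ K) hD (Finset.subset_univ D) h1
    have := hs z (j + 1) ⟨B, h2, h3⟩
    omega
  | succ k ih =>
    intro j K a hj hB
    have ha : Agree K a a := fun v _ => rfl
    by_cases hc : ∀ S z, S.Nonempty → Disjoint S K → Agree K a z → altSum f S z = 0
    · refine ⟨DT.leaf (f a), Nat.zero_le _, fun z hz => ?_⟩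
      rw [DT.eval]
      exact (const_of_altSum f ha hz hc).symm
    · push Not at hc
      obtain ⟨S0, z0, hS0, hS0K, hz0, h0⟩ := hc
      obtain ⟨M, hM, hmax⟩ := Finset.exists_max_image
        (Finset.univ.filter (fun S : Finset V => S.Nonempty ∧ Disjoint S K ∧
          ∃ z, Agree K a z ∧ altSum f S z ≠ 0)) Finset.card
        ⟨S0, Finset.mem_filter.2 ⟨Finset.mem_univ _, hS0, hS0K, z0, hz0, h0⟩⟩
      obtain ⟨_, hMne, hMK, z1, hz1, h1⟩ := Finset.mem_filter.1 hM
      have hall : ∀ z, Agree K a z → altSum f M z ≠ 0 := by
        intro z hz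
        refine altSum_ne_of_max f hMK hz1 h1 ?_ hz
        intro S z hSK hz hne
        rcases S.eq_empty_or_nonempty with rfl | hS
        · simp
        · exact hmax S (Finset.mem_filter.2 ⟨Finset.mem_univ _, hS, hSK, z, hz, hne⟩)
      have hg : ∀ b : V → Bool, ∃ t : DT V Bool, t.depth ≤ k * d ∧
          (Agree K a b → ∀ z, Agree (K ∪ M) b z → t.eval z = f z) := by
        intro b
        by_cases hb : Agree K a b
        · obtain ⟨t, ht, he⟩ := ih (j + 1) (K ∪ M) b (by omega) (by
            intro z hz
            have hz' : Agree K a z := fun v hv =>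
              (hz v (Finset.mem_union_left _ hv)).trans (hb v hv)
            obtain ⟨A, hA, hfA⟩ := exists_block f M hMne z (hall z hz')
            exact (hB z hz').add Finset.subset_union_left
              (Finset.disjoint_of_subset_left hA hMK) (hA.trans Finset.subset_union_right) hfA)
          exact ⟨t, ht, fun _ => he⟩
        · exact ⟨DT.leaf false, Nat.zero_le _, fun h => absurd h hb⟩
      choose g hgd hge using hg
      obtain ⟨t, ht, he⟩ := query_all g (k * d) hgd M a
      refine ⟨t, ?_, fun z hz => ?_⟩
      · have := hd M z1 h1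
        rw [Nat.succ_mul]
        omega
      · rw [he]
        apply hge
        · intro v hv
          have : v ∉ M := fun h' => Finset.disjoint_left.1 hMK h' hv
          simp [this]
        · intro v hv
          by_cases hvM : v ∈ M
          · simp [hvM]
          · have hvK : v ∈ K := by
              rcases Finset.mem_union.1 hv with h | h
              · exact h
              · exact absurd h hvM
            simp [hvM, hz v hvK]

end

theorem partU1 : PartU1 := by
  intro V _ _ f d s hd hs
  obtain ⟨t, ht, he⟩ := u1_aux f d s hd hs s 0 ∅ (fun _ => false) (by omega) (by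
    intro z _
    exact ⟨fun i => i.elim0, fun i => i.elim0, fun i => i.elim0, fun i => i.elim0⟩)
  exact ⟨t, fun x => he x (fun v hv => absurd hv (Finset.notMem_empty v)), ht⟩

end P362
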