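import Vale.Agent.Lib.P362.Upper.Stmt

/-! P362, upper bound: Huang's theorem for the signed cube. -/

namespace P362

namespace UH

open Finset

/-- sign of a bit, real valued -/
noncomputable def sg (b : Bool) : ℝ := if b then -1 else 1

variable {K : Type} [Fintype K] [DecidableEq K]

set_option linter.unusedSectionVars false

theorem flip_flip (i : K) (x : K → Bool) : flipS {i} (flipS {i} x) = x := by
  funext j
  simp only [flipS]
  cases x j <;> cases decide (j ∈ ({i} : Finset K)) <;> rfl

theorem flip_comm (i j : K) (x : K → Bool) :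
    flipS {i} (flipS {j} x) = flipS {j} (flipS {i} x) := by
  funext k
  simp only [flipS]
  cases x k <;> cases decide (k ∈ ({i} : Finset K)) <;> cases decide (k ∈ ({j} : Finset K)) <;> rfl

theorem sg_flip (i j : K) (x : K → Bool) :
    sg (flipS {i} x j) = sg (x j) * (if j = i then -1 else 1) := by
  unfold flipS sg
  by_cases h : j = i
  · simp [h]
    cases x i <;> simp
  · simp [h]

/-- parity -/
noncomputable def par (x : K → Bool) : ℝ := ∏ j, sg (x j)

/-- partial parity -/
noncomputable def sig (x : K → Bool) (i : K) : ℝ :=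
  ∏ j, if Fintype.equivFin K j < Fintype.equivFin K i then sg (x j) else 1

theorem sg_sq (b : Bool) : sg b * sg b = 1 := by cases b <;> simp [sg]

theorem par_sq (x : K → Bool) : par x * par x = 1 := by
  unfold par
  rw [← Finset.prod_mul_distrib]
  exact Finset.prod_eq_one (fun j _ => sg_sq _)

theorem sig_sq (x : K → Bool) (i : K) : sig x i * sig x i = 1 := by
  unfold sig
  rw [← Finset.prod_mul_distrib]
  refine Finset.prod_eq_one (fun j _ => ?_)
  split_ifs
  · exact sg_sq _
  · norm_num

theorem par_flip (i : K) (x : K → Bool) : par (flipS {i} x) = - par x := by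
  unfold par
  simp only [sg_flip]
  rw [Finset.prod_mul_distrib, Finset.prod_ite_eq']
  simp

theorem sig_flip (i j : K) (x : K → Bool) :
    sig (flipS {i} x) j =
      sig x j * (if Fintype.equivFin K i < Fintype.equivFin K j then -1 else 1) := by
  unfold sig
  have h : ∀ k, (if Fintype.equivFin K k < Fintype.equivFin K j then sg (flipS {i} x k) else 1) =
      (if Fintype.equivFin K k < Fintype.equivFin K j then sg (x k) else 1) *
        (if k = i then (if Fintype.equivFin K i < Fintype.equivFin K j then -1 else 1) else 1) := by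
    intro k
    by_cases hk : k = i
    · subst hk
      rw [sg_flip]
      split_ifs <;> simp
    · rw [sg_flip]
      simp [hk]
  rw [Finset.prod_congr rfl (fun k _ => h k), Finset.prod_mul_distrib, Finset.prod_ite_eq']
  simp

/-- the signed adjacency operator of the cube -/
noncomputable def B : ((K → Bool) → ℝ) →ₗ[ℝ] ((K → Bool) → ℝ) where
  toFun w := fun x => ∑ i, sig x i * w (flipS {i} x)
  map_add' u w := by
    funext x
    simp [mul_add, Finset.sum_add_distrib]
  map_smul' c w := by
    funext x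
    simp only [Pi.smul_apply, smul_eq_mul, RingHom.id_apply, Finset.mul_sum]
    refine Finset.sum_congr rfl (fun i _ => ?_)
    ring

theorem B_apply (w : (K → Bool) → ℝ) (x : K → Bool) :
    B w x = ∑ i, sig x i * w (flipS {i} x) := rfl

theorem sum_antisymm (F : K → K → ℝ) (h : ∀ i j, i ≠ j → F i j = - F j i) :
    ∑ i, ∑ j, F i j = ∑ i, F i i := by
  have h1 : ∑ i, ∑ j, (F i j + F j i) = ∑ i, ∑ j, (if i = j then 2 * F i i else 0) := by
    refine Finset.sum_congr rfl (fun i _ => Finset.sum_congr rfl (fun j _ => ?_))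
    by_cases hij : i = j
    · subst hij; simp; ring
    · rw [if_neg hij, h i j hij]; ring
  have h2 : ∑ i, ∑ j, (F i j + F j i) = 2 * ∑ i, ∑ j, F i j := by
    simp only [Finset.sum_add_distrib]
    rw [Finset.sum_comm (f := fun i j => F j i)]
    ring
  have h3 : ∑ i, ∑ j, (if i = j then 2 * F i i else 0) = 2 * ∑ i, F i i := by
    rw [Finset.mul_sum]
    refine Finset.sum_congr rfl (fun i _ => ?_)
    simp
  linarith

theorem B_sq (w : (K → Bool) → ℝ) : B (B w) = (Fintype.card K : ℝ) • w := by
  funext x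
  rw [B_apply]
  have h0 : ∀ i, sig x i * B w (flipS {i} x) =
      ∑ j, sig x i * (sig (flipS {i} x) j * w (flipS {j} (flipS {i} x))) := by
    intro i
    rw [B_apply, Finset.mul_sum]
  rw [Finset.sum_congr rfl (fun i _ => h0 i), sum_antisymm]
  · have h1 : ∀ i, sig x i * (sig (flipS {i} x) i * w (flipS {i} (flipS {i} x))) = w x := by
      intro i
      rw [flip_flip, sig_flip]
      simp only [lt_irrefl, if_false, mul_one]
      rw [← mul_assoc, sig_sq, one_mul]
    rw [Finset.sum_congr rfl (fun i _ => h1 i)]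
    simp
  · intro i j hij
    rw [flip_comm j i, sig_flip, sig_flip]
    have hne : Fintype.equivFin K i ≠ Fintype.equivFin K j :=
      fun h => hij ((Fintype.equivFin K).injective h)
    rcases lt_or_gt_of_ne hne with h | h
    · rw [if_pos h, if_neg (lt_asymm h)]; ring
    · rw [if_pos h, if_neg (lt_asymm h)]; ring

theorem B_par (w : (K → Bool) → ℝ) (x : K → Bool) :
    B (fun y => par y * w y) x = - (par x * B w x) := by
  rw [B_apply, B_apply, Finset.mul_sum, ← Finset.sum_neg_distrib]
  refine Finset.sum_congr rfl (fun i _ => ?_)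
  rw [par_flip]; ring

/-- multiplication by the parity -/
noncomputable def P : ((K → Bool) → ℝ) →ₗ[ℝ] ((K → Bool) → ℝ) where
  toFun w := fun x => par x * w x
  map_add' u w := by
    funext x
    simp [mul_add]
  map_smul' c w := by
    funext x
    simp only [Pi.smul_apply, smul_eq_mul, RingHom.id_apply]
    ring

theorem P_apply (w : (K → Bool) → ℝ) (x : K → Bool) : P w x = par x * w x := rfl

theorem P_inj : Function.Injective (P : ((K → Bool) → ℝ) →ₗ[ℝ] ((K → Bool) → ℝ)) := by
  intro u w h
  funext x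
  have := congrFun h x
  rw [P_apply, P_apply] at this
  have h1 := par_sq x
  have h2 : par x ≠ 0 := fun h0 => by rw [h0] at h1; norm_num at h1
  exact mul_left_cancel₀ h2 this

theorem range_le (s : ℝ) (hs : s * s = Fintype.card K) :
    LinearMap.range (B + s • (LinearMap.id : ((K → Bool) → ℝ) →ₗ[ℝ] ((K → Bool) → ℝ))) ≤
      LinearMap.ker (B - s • (LinearMap.id : ((K → Bool) → ℝ) →ₗ[ℝ] ((K → Bool) → ℝ))) := by
  rintro _ ⟨w, rfl⟩
  rw [LinearMap.mem_ker]
  simp only [LinearMap.sub_apply, LinearMap.add_apply, LinearMap.smul_apply, LinearMap.id_apply,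
    map_add, map_smul]
  funext x
  have hb := congrFun (B_sq w) x
  simp only [Pi.add_apply, Pi.sub_apply, Pi.smul_apply, smul_eq_mul, Pi.zero_apply] at hb ⊢
  linear_combination hb - w x * hs

theorem ker_le (s : ℝ) :
    Module.finrank ℝ
      (LinearMap.ker (B + s • (LinearMap.id : ((K → Bool) → ℝ) →ₗ[ℝ] ((K → Bool) → ℝ)))) ≤
    Module.finrank ℝ
      (LinearMap.ker (B - s • (LinearMap.id : ((K → Bool) → ℝ) →ₗ[ℝ] ((K → Bool) → ℝ)))) := by
  have hm : ∀ w : LinearMap.ker (B + s • (LinearMap.id : ((K → Bool) → ℝ) →ₗ[ℝ] ((K → Bool) → ℝ))),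
      P w.1 ∈ LinearMap.ker (B - s • (LinearMap.id : ((K → Bool) → ℝ) →ₗ[ℝ] ((K → Bool) → ℝ))) := by
    intro w
    have h := w.2
    rw [LinearMap.mem_ker] at h ⊢
    funext x
    have hx := congrFun h x
    simp only [LinearMap.add_apply, LinearMap.smul_apply, LinearMap.id_apply, Pi.add_apply,
      Pi.smul_apply, smul_eq_mul, Pi.zero_apply] at hx
    simp only [LinearMap.sub_apply, LinearMap.smul_apply, LinearMap.id_apply, Pi.sub_apply,
      Pi.smul_apply, smul_eq_mul, Pi.zero_apply]
    have h2 : B (P w.1) x = - (par x * B w.1 x) := B_par w.1 x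
    rw [h2, P_apply]
    linear_combination (- par x) * hx
  refine LinearMap.finrank_le_finrank_of_injective
    (f := LinearMap.codRestrict _ (P.comp (Submodule.subtype _)) hm) ?_
  intro u w h
  have h1 := congrArg Subtype.val h
  exact Subtype.ext (P_inj h1)

theorem two_finrank (s : ℝ) (hs : s * s = Fintype.card K) :
    2 ^ Fintype.card K ≤ 2 * Module.finrank ℝ
      (LinearMap.ker (B - s • (LinearMap.id : ((K → Bool) → ℝ) →ₗ[ℝ] ((K → Bool) → ℝ)))) := by
  have h1 := LinearMap.finrank_range_add_finrank_ker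
    (B + s • (LinearMap.id : ((K → Bool) → ℝ) →ₗ[ℝ] ((K → Bool) → ℝ)))
  rw [Module.finrank_fintype_fun_eq_card, Fintype.card_fun, Fintype.card_bool] at h1
  have h2 := Submodule.finrank_mono (range_le s hs)
  have h3 := ker_le (K := K) s
  omega

/-- restriction to the complement of `H` -/
noncomputable def Rs (H : Finset (K → Bool)) :
    ((K → Bool) → ℝ) →ₗ[ℝ] ({x : K → Bool // x ∉ H} → ℝ) where
  toFun w := fun x => w x.1
  map_add' _ _ := rfl
  map_smul' _ _ := rfl

theorem exists_vec (s : ℝ) (hs : s * s = Fintype.card K) (H : Finset (K → Bool))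
    (hH : 2 ^ Fintype.card K < 2 * H.card) :
    ∃ w : (K → Bool) → ℝ, w ≠ 0 ∧ (∀ x, x ∉ H → w x = 0) ∧ ∀ x, B w x = s * w x := by
  have h1 := two_finrank s hs
  have hc : Fintype.card {x : K → Bool // x ∉ H} = 2 ^ Fintype.card K - H.card := by
    rw [Fintype.card_subtype_compl, Fintype.card_fun, Fintype.card_bool, Fintype.card_coe]
  have hle : H.card ≤ 2 ^ Fintype.card K := by
    have := Finset.card_le_univ H
    rwa [Fintype.card_fun, Fintype.card_bool] at this
  have h2 : Module.finrank ℝ ({x : K → Bool // x ∉ H} → ℝ) < Module.finrank ℝ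
      (LinearMap.ker (B - s • (LinearMap.id : ((K → Bool) → ℝ) →ₗ[ℝ] ((K → Bool) → ℝ)))) := by
    rw [Module.finrank_fintype_fun_eq_card, hc]
    omega
  have h3 := LinearMap.ker_ne_bot_of_finrank_lt
    (f := (Rs H).comp (Submodule.subtype (LinearMap.ker
      (B - s • (LinearMap.id : ((K → Bool) → ℝ) →ₗ[ℝ] ((K → Bool) → ℝ)))))) h2
  obtain ⟨w, hw, hw0⟩ := Submodule.exists_mem_ne_zero_of_ne_bot h3
  refine ⟨w.1, fun h => hw0 (Subtype.ext h), fun x hx => ?_, fun x => ?_⟩
  · rw [LinearMap.mem_ker] at hw
    exact congrFun hw ⟨x, hx⟩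
  · have h4 := w.2
    rw [LinearMap.mem_ker] at h4
    have h5 := congrFun h4 x
    simp only [LinearMap.sub_apply, LinearMap.smul_apply, LinearMap.id_apply, Pi.sub_apply,
      Pi.smul_apply, smul_eq_mul, Pi.zero_apply] at h5
    linarith

theorem abs_sig (x : K → Bool) (i : K) : |sig x i| = 1 := by
  have h := sig_sq x i
  have h1 : |sig x i| * |sig x i| = 1 := by rw [← abs_mul, h, abs_one]
  nlinarith [abs_nonneg (sig x i)]

end UH

theorem partUH : PartUH := by
  intro K _ _ H hH
  have hs : Real.sqrt (Fintype.card K) * Real.sqrt (Fintype.card K) = Fintype.card K :=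
    Real.mul_self_sqrt (Nat.cast_nonneg _)
  obtain ⟨w, hw, hwH, hB⟩ := UH.exists_vec _ hs H hH
  refine ⟨fun x => |w x|, fun x => abs_nonneg _, fun x hx => by simp [hwH x hx], ?_, ?_⟩
  · obtain ⟨x, hx⟩ := Function.ne_iff.mp hw
    have hx' : w x ≠ 0 := hx
    refine lt_of_lt_of_le (by positivity : 0 < |w x| ^ 2) ?_
    exact Finset.single_le_sum (f := fun x => |w x| ^ 2) (fun _ _ => by positivity)
      (Finset.mem_univ x)
  · rw [Finset.mul_sum]
    refine Finset.sum_le_sum (fun x _ => ?_)
    rw [← Finset.mul_sum]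
    have h1 : Real.sqrt (Fintype.card K) * |w x| ≤ ∑ i : K, |w (flipS {i} x)| := by
      have h2 : Real.sqrt (Fintype.card K) * |w x| = |UH.B w x| := by
        rw [hB x, abs_mul, abs_of_nonneg (Real.sqrt_nonneg _)]
      rw [h2, UH.B_apply]
      refine (Finset.abs_sum_le_sum_abs _ _).trans (le_of_eq ?_)
      refine Finset.sum_congr rfl (fun i _ => ?_)
      rw [abs_mul, UH.abs_sig, one_mul]
    have h3 := mul_le_mul_of_nonneg_left h1 (abs_nonneg (w x))
    nlinarith

end P362
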