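import Vale.Agent.Lib.P362.Upper.Main
import Vale.Agent.Lib.P362.Upper.U1
import Vale.Agent.Lib.P362.Upper.UH

/-! P362, upper bound: `R ≤ D ≤ 40960000 Q^4`, unconditional. -/

namespace P362

variable {V : Type} [Fintype V] [DecidableEq V] {f : (V → Bool) → Bool}

/-- `D ≤ 40960000 Q^4` -/
theorem exists_tree_of_quant {T : ℕ} (hq : QuantComputes T f) :
    ∃ t : DT V Bool, (∀ x, t.eval x = f x) ∧ t.depth ≤ 40960000 * T ^ 4 :=
  upper_tree partU1 partUH hq

/-- a quantum algorithm with `T` queries gives a randomized (indeed deterministic) one with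
`40960000 T^4` queries -/
theorem randComputes_of_quant {T : ℕ} (hq : QuantComputes T f) :
    RandComputes (40960000 * T ^ 4) f :=
  upper_rand partU1 partUH hq

/-- `R ≤ 40960000 Q^4` -/
theorem RQ_le_QQ (hq : ∃ T, QuantComputes T f) : RQ f ≤ 40960000 * QQ f ^ 4 :=
  RQ_le partU1 partUH hq

end P362
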