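import Vale.Agent.Lib.P362.Upper.Stmt

/-! P362, upper bound: (U3) from (UH), by the trick of Gotsman and Linial. -/

namespace P362

/-- the embedding of the cube on `S` as the subcube through `x` in the directions `S` -/
private def u3e {V : Type} [DecidableEq V] (S : Finset V) (x : V → Bool) (y : {i // i ∈ S} → Bool) :
    V → Bool :=
  fun v => if h : v ∈ S then xor (x v) (y ⟨v, h⟩) else x v

private theorem u3e_inj {V : Type} [DecidableEq V] (S : Finset V) (x : V → Bool) :
    Function.Injective (u3e S x) := by
  intro y y' h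
  funext i
  have h1 := congrFun h i.1
  unfold u3e at h1
  rw [dif_pos i.2, dif_pos i.2] at h1
  exact Bool.xor_right_inj.1 h1

private theorem u3e_flip {V : Type} [DecidableEq V] (S : Finset V) (x : V → Bool)
    (y : {i // i ∈ S} → Bool) (i : {i // i ∈ S}) :
    flipS {i.1} (u3e S x y) = u3e S x (flipS {i} y) := by
  funext v
  unfold flipS u3e
  by_cases hv : v ∈ S
  · rw [dif_pos hv, dif_pos hv]
    have : decide (v ∈ ({i.1} : Finset V)) = decide ((⟨v, hv⟩ : {i // i ∈ S}) ∈
        ({i} : Finset {i // i ∈ S})) := by
      rw [Bool.eq_iff_iff, decide_eq_true_eq, decide_eq_true_eq, Finset.mem_singleton,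
        Finset.mem_singleton]
      exact ⟨fun h => Subtype.ext h, fun h => congrArg Subtype.val h⟩
    rw [this, Bool.xor_assoc]
  · rw [dif_neg hv, dif_neg hv]
    have : v ∉ ({i.1} : Finset V) := by
      rw [Finset.mem_singleton]
      rintro rfl
      exact hv i.2
    simp [this]

/-- the sign of a vertex of the cube -/
private def u3s {K : Type} [Fintype K] (y : K → Bool) : ℤ := ∏ i, (if y i then -1 else 1)

private theorem u3s_sq {K : Type} [Fintype K] (y : K → Bool) : u3s y = 1 ∨ u3s y = -1 := by
  have h : ∀ s : Finset K, (∏ i ∈ s, (if y i then (-1 : ℤ) else 1)) = 1 ∨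
      (∏ i ∈ s, (if y i then (-1 : ℤ) else 1)) = -1 := by
    classical
    intro s
    induction s using Finset.induction_on with
    | empty => left; rfl
    | insert a s ha ih =>
      rw [Finset.prod_insert ha]
      rcases ih with h | h <;> rw [h] <;> by_cases hy : y a <;> simp [hy]
  exact h Finset.univ

private theorem u3s_flip {K : Type} [Fintype K] [DecidableEq K] (y : K → Bool) (i : K) :
    u3s (flipS {i} y) = -u3s y := by
  unfold u3s
  rw [← Finset.mul_prod_erase Finset.univ _ (Finset.mem_univ i),
    ← Finset.mul_prod_erase Finset.univ (fun j => if y j then (-1 : ℤ) else 1) (Finset.mem_univ i)]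
  have h1 : ∏ j ∈ Finset.univ.erase i, (if flipS {i} y j then (-1 : ℤ) else 1) =
      ∏ j ∈ Finset.univ.erase i, (if y j then (-1 : ℤ) else 1) := by
    refine Finset.prod_congr rfl fun j hj => ?_
    have hj' : j ∉ ({i} : Finset K) := by
      rw [Finset.mem_singleton]
      exact (Finset.mem_erase.1 hj).1
    unfold flipS
    simp [hj']
  rw [h1]
  have h2 : (if flipS {i} y i then (-1 : ℤ) else 1) = -(if y i then (-1 : ℤ) else 1) := by
    unfold flipS
    cases y i <;> simp
  rw [h2]
  ring

/-- the sum of the signs vanishes -/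
private theorem u3s_sum {K : Type} [Fintype K] [DecidableEq K] (i : K) :
    ∑ y : K → Bool, u3s y = 0 := by
  have hinv : Function.Involutive (flipS ({i} : Finset K)) := by
    intro y
    funext v
    unfold flipS
    rw [Bool.xor_assoc, Bool.xor_self, Bool.xor_false]
  have h1 : ∑ y : K → Bool, u3s (flipS {i} y) = ∑ y : K → Bool, u3s y :=
    Equiv.sum_comp hinv.toPerm u3s
  have h2 : ∑ y : K → Bool, u3s (flipS {i} y) = -∑ y : K → Bool, u3s y := by
    rw [← Finset.sum_neg_distrib]
    exact Finset.sum_congr rfl fun y _ => u3s_flip y i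
  linarith

/-- the alternating sum as a sum over the cube -/
private theorem u3_altSum {V : Type} [DecidableEq V] (f : (V → Bool) → Bool) (S : Finset V)
    (x : V → Bool) : altSum f S x = ∑ y : {i // i ∈ S} → Bool,
      u3s y * (if f (u3e S x y) then 1 else 0) := by
  unfold altSum
  symm
  refine Finset.sum_bij (fun y _ => (Finset.univ.filter fun i => y i = true).map
    (Function.Embedding.subtype (· ∈ S))) ?_ ?_ ?_ ?_
  · intro y _
    rw [Finset.mem_powerset]
    intro v hv
    rw [Finset.mem_map] at hv
    obtain ⟨i, _, rfl⟩ := hv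
    exact i.2
  · intro y _ y' _ h
    have h1 := Finset.map_injective _ h
    funext i
    have h2 : y i = true ↔ y' i = true := by
      have h3 : i ∈ Finset.univ.filter (fun i => y i = true) ↔
          i ∈ Finset.univ.filter (fun i => y' i = true) := by rw [h1]
      simpa using h3
    exact Bool.eq_iff_iff.2 h2
  · intro A hA
    rw [Finset.mem_powerset] at hA
    refine ⟨fun i => decide (i.1 ∈ A), Finset.mem_univ _, ?_⟩
    ext v
    simp only [Finset.mem_map, Finset.mem_filter, Finset.mem_univ, true_and, decide_eq_true_eq,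
      Function.Embedding.subtype_apply]
    constructor
    · rintro ⟨i, hi, rfl⟩
      exact hi
    · intro hv
      exact ⟨⟨v, hA hv⟩, hv, rfl⟩
  · intro y _
    have h1 : u3e S x y = flipS ((Finset.univ.filter fun i => y i = true).map
        (Function.Embedding.subtype (· ∈ S))) x := by
      funext v
      unfold u3e flipS
      by_cases hv : v ∈ S
      · rw [dif_pos hv]
        congr 1
        have : v ∈ (Finset.univ.filter fun i => y i = true).map
            (Function.Embedding.subtype (· ∈ S)) ↔ y ⟨v, hv⟩ = true := by
          simp only [Finset.mem_map, Finset.mem_filter, Finset.mem_univ, true_and,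
            Function.Embedding.subtype_apply]
          constructor
          · rintro ⟨i, hi, rfl⟩
            exact hi
          · intro h
            exact ⟨⟨v, hv⟩, h, rfl⟩
        rw [Bool.eq_iff_iff, decide_eq_true_eq, this]
      · rw [dif_neg hv]
        have : v ∉ (Finset.univ.filter fun i => y i = true).map
            (Function.Embedding.subtype (· ∈ S)) := by
          simp only [Finset.mem_map, Finset.mem_filter, Finset.mem_univ, true_and,
            Function.Embedding.subtype_apply]
          rintro ⟨i, _, rfl⟩
          exact hv i.2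
        rw [decide_eq_false this, Bool.xor_false]
    rw [h1]
    congr 1
    rw [Finset.card_map]
    unfold u3s
    rw [Finset.prod_ite, Finset.prod_const, Finset.prod_const_one, mul_one]

/-- the trick of Gotsman and Linial, with flips in the directions of `S` only -/
theorem u3_core (h : PartUH) {V : Type} [Fintype V] [DecidableEq V] (f : (V → Bool) → Bool)
    (S : Finset V) (x : V → Bool) (hS : altSum f S x ≠ 0) :
    ∃ v : (V → Bool) → ℝ, (∀ x, 0 ≤ v x) ∧ 0 < ∑ x, v x ^ 2 ∧
      Real.sqrt S.card * ∑ x, v x ^ 2 ≤
        ∑ x, ∑ i ∈ S, (if f x ≠ f (flipS {i} x) then v x * v (flipS {i} x) else 0) := by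
  classical
  by_cases hne : S.Nonempty
  swap
  · rw [Finset.not_nonempty_iff_eq_empty] at hne
    subst hne
    refine ⟨fun _ => 1, fun _ => zero_le_one, ?_, ?_⟩
    · simp
    · rw [Finset.card_empty, Nat.cast_zero, Real.sqrt_zero, zero_mul]
      simp
  obtain ⟨i₀, hi₀⟩ := hne
  -- the sign function
  let q : ({i // i ∈ S} → Bool) → ℤ := fun y => u3s y * (if f (u3e S x y) then -1 else 1)
  have hq : ∀ y, q y = 1 ∨ q y = -1 := by
    intro y
    show u3s y * (if f (u3e S x y) then -1 else 1) = 1 ∨ u3s y * (if f (u3e S x y) then -1 else 1) = -1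
    rcases u3s_sq y with h1 | h1 <;> rw [h1] <;> by_cases h2 : f (u3e S x y) <;> simp [h2]
  have hqsum : ∑ y, q y = -2 * altSum f S x := by
    rw [u3_altSum, Finset.mul_sum]
    have h1 : ∀ y : {i // i ∈ S} → Bool, q y = u3s y + -2 * (u3s y * (if f (u3e S x y) then 1 else 0)) := by
      intro y
      show u3s y * (if f (u3e S x y) then -1 else 1) = _
      by_cases h2 : f (u3e S x y) <;> simp [h2]
      ring
    rw [Finset.sum_congr rfl fun y _ => h1 y, Finset.sum_add_distrib,
      u3s_sum (⟨i₀, hi₀⟩ : {i // i ∈ S}), zero_add]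
  have hqne : ∑ y, q y ≠ 0 := by
    rw [hqsum]
    exact mul_ne_zero (by norm_num) hS
  -- a large sign class
  obtain ⟨c, hc, hH⟩ : ∃ c : ℤ, (c = 1 ∨ c = -1) ∧
      2 ^ Fintype.card {i // i ∈ S} < 2 * (Finset.univ.filter fun y => q y = c).card := by
    have hcard : (Finset.univ.filter fun y => q y = 1).card +
        (Finset.univ.filter fun y => q y = -1).card = 2 ^ Fintype.card {i // i ∈ S} := by
      have h1 : (Finset.univ.filter fun y => q y = -1) =
          (Finset.univ.filter fun y => ¬ q y = 1) := by
        refine Finset.filter_congr fun y _ => ?_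
        rcases hq y with h2 | h2 <;> rw [h2] <;> norm_num
      rw [h1, Finset.card_filter_add_card_filter_not]
      simp
    have hsum : ∑ y, q y = ((Finset.univ.filter fun y => q y = 1).card : ℤ) -
        ((Finset.univ.filter fun y => q y = -1).card : ℤ) := by
      have h1 : ∀ y, q y = (if q y = 1 then 1 else 0) - (if q y = -1 then 1 else 0) := by
        intro y
        rcases hq y with h2 | h2 <;> rw [h2] <;> norm_num
      rw [Finset.sum_congr rfl fun y _ => h1 y, Finset.sum_sub_distrib, Finset.sum_boole,
        Finset.sum_boole]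
    rw [hsum] at hqne
    rcases lt_or_gt_of_ne (show (Finset.univ.filter fun y => q y = 1).card ≠
        (Finset.univ.filter fun y => q y = -1).card from fun h2 => hqne (by rw [h2, sub_self]))
      with h2 | h2
    · exact ⟨-1, Or.inr rfl, by omega⟩
    · exact ⟨1, Or.inl rfl, by omega⟩
  obtain ⟨w, hw0, hwH, hwpos, hw⟩ := h {i // i ∈ S} _ hH
  -- transport to the cube on V
  let v : (V → Bool) → ℝ := fun z => ∑ y : {i // i ∈ S} → Bool, if u3e S x y = z then w y else 0
  have hv : ∀ y, v (u3e S x y) = w y := by
    intro y
    show ∑ y' : {i // i ∈ S} → Bool, (if u3e S x y' = u3e S x y then w y' else 0) = w y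
    rw [Finset.sum_eq_single y]
    · rw [if_pos rfl]
    · intro y' _ hy'
      rw [if_neg]
      exact fun h2 => hy' (u3e_inj S x h2)
    · intro h2
      exact absurd (Finset.mem_univ y) h2
  have hv' : ∀ z, z ∉ Set.range (u3e S x) → v z = 0 := by
    intro z hz
    show ∑ y' : {i // i ∈ S} → Bool, (if u3e S x y' = z then w y' else 0) = 0
    refine Finset.sum_eq_zero fun y _ => ?_
    rw [if_neg]
    exact fun h2 => hz ⟨y, h2⟩
  have hv0 : ∀ z, 0 ≤ v z := fun z => Finset.sum_nonneg fun y _ => by
    split_ifs
    · exact hw0 y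
    · exact le_rfl
  have hsq : ∑ z, v z ^ 2 = ∑ y, w y ^ 2 := by
    symm
    refine Fintype.sum_of_injective (u3e S x) (u3e_inj S x) _ _ ?_ ?_
    · intro z hz
      rw [hv' z hz]
      norm_num
    · intro y
      rw [hv y]
  refine ⟨v, hv0, ?_, ?_⟩
  · rw [hsq]
    exact hwpos
  rw [hsq]
  have hcardS : (S.card : ℝ) = (Fintype.card {i // i ∈ S} : ℝ) := by
    rw [Fintype.card_coe]
  rw [hcardS]
  refine hw.trans ?_
  have hterm : ∀ z (i : V), 0 ≤ (if f z ≠ f (flipS {i} z) then v z * v (flipS {i} z) else 0) := by
    intro z i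
    split_ifs
    · exact mul_nonneg (hv0 _) (hv0 _)
    · exact le_rfl
  calc ∑ y : {i // i ∈ S} → Bool, ∑ i, w y * w (flipS {i} y)
      ≤ ∑ y : {i // i ∈ S} → Bool, ∑ i ∈ S, (if f (u3e S x y) ≠ f (flipS {i} (u3e S x y)) then
          v (u3e S x y) * v (flipS {i} (u3e S x y)) else 0) := by
        refine Finset.sum_le_sum fun y _ => ?_
        calc ∑ i : {i // i ∈ S}, w y * w (flipS {i} y)
            ≤ ∑ i : {i // i ∈ S}, (if f (u3e S x y) ≠ f (flipS {i.1} (u3e S x y)) then
                v (u3e S x y) * v (flipS {i.1} (u3e S x y)) else 0) := by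
              refine Finset.sum_le_sum fun i _ => ?_
              rw [u3e_flip, hv, hv]
              split_ifs with h3
              · exact le_rfl
              · by_cases h4 : q y = c
                · by_cases h5 : q (flipS {i} y) = c
                  · exfalso
                    have h6 : q (flipS {i} y) = -q y := by
                      show u3s (flipS {i} y) * (if f (u3e S x (flipS {i} y)) then -1 else 1) =
                        -(u3s y * (if f (u3e S x y) then -1 else 1))
                      rw [u3s_flip, ← not_not.1 h3]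
                      ring
                    rw [h4, h5] at h6
                    rcases hc with rfl | rfl <;> norm_num at h6
                  · rw [hwH (flipS {i} y) (by simpa using h5), mul_zero]
                · rw [hwH y (by simpa using h4), zero_mul]
          _ = ∑ i ∈ S, (if f (u3e S x y) ≠ f (flipS {i} (u3e S x y)) then
                v (u3e S x y) * v (flipS {i} (u3e S x y)) else 0) :=
              Finset.sum_coe_sort S (fun i => if f (u3e S x y) ≠ f (flipS {i} (u3e S x y)) then
                v (u3e S x y) * v (flipS {i} (u3e S x y)) else 0)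
    _ = ∑ z ∈ Finset.univ.image (u3e S x), ∑ i ∈ S, (if f z ≠ f (flipS {i} z) then
          v z * v (flipS {i} z) else 0) := by
        rw [Finset.sum_image fun a _ b _ hab => u3e_inj S x hab]
    _ ≤ _ := Finset.sum_le_sum_of_subset_of_nonneg (Finset.subset_univ _)
        fun z _ _ => Finset.sum_nonneg fun i _ => hterm z i

theorem partU3 (h : PartUH) : PartU3 := by
  intro V _ _ f S x hS
  obtain ⟨v, hv0, hvpos, hv⟩ := u3_core h f S x hS
  refine ⟨v, hv0, hvpos, hv.trans ?_⟩
  unfold sensForm
  refine Finset.sum_le_sum fun z _ => ?_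
  refine Finset.sum_le_sum_of_subset_of_nonneg (Finset.subset_univ S) fun i _ _ => ?_
  split_ifs
  · exact mul_nonneg (hv0 _) (hv0 _)
  · exact le_rfl

end P362
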