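import Vale.Agent.Lib.P362.Upper.Quant

/-! P362, upper bound: `v^T A_f v ≤ 80 T v^T v` (part U4). -/

namespace P362

open Finset

theorem flipS_flipS {V : Type} [DecidableEq V] (A : Finset V) (x : V → Bool) :
    flipS A (flipS A x) = x := by
  funext v
  simp [flipS]

theorem flipS_single_ne {V : Type} [DecidableEq V] (i v : V) (x : V → Bool) :
    x v ≠ flipS {i} x v ↔ v = i := by
  by_cases h : v = i
  · simp [flipS, h]
  · simp [flipS, h]

/-- flipping as a permutation of the inputs -/
def flipEquiv {V : Type} [DecidableEq V] (A : Finset V) : (V → Bool) ≃ (V → Bool) where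
  toFun := flipS A
  invFun := flipS A
  left_inv := flipS_flipS A
  right_inv := flipS_flipS A

theorem partU4 : PartU4 := by
  intro V _ _ f T v hq hv
  obtain ⟨A, hA⟩ := hq
  have h := adversary A hA (E := (V → Bool) × V) (fun e => e.1) (fun e => flipS {e.2} e.1)
    (fun e => if f e.1 ≠ f (flipS {e.2} e.1) then v e.1 else 0) (fun e => v (flipS {e.2} e.1))
    (fun e => by split_ifs; exacts [hv _, le_refl _]) (fun e => hv _)
    (fun e he => if_neg (by simpa using he))
  have h1 : ∑ e : (V → Bool) × V, (if f e.1 ≠ f (flipS {e.2} e.1) then v e.1 else 0) *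
      v (flipS {e.2} e.1) = sensForm f v := by
    unfold sensForm
    rw [Fintype.sum_prod_type]
    refine Finset.sum_congr rfl fun x _ => Finset.sum_congr rfl fun i _ => ?_
    dsimp only
    split_ifs <;> simp
  rw [h1] at h
  have h2 : ∀ t, ∑ e : (V → Bool) × V, ∑ u, (if e.1 u ≠ flipS {e.2} e.1 u then
      (if f e.1 ≠ f (flipS {e.2} e.1) then v e.1 else 0) ^ 2 * mass u (A.state e.1 t) +
        v (flipS {e.2} e.1) ^ 2 * mass u (A.state (flipS {e.2} e.1) t) else 0) ≤
      2 * ∑ x, v x ^ 2 := by
    intro t
    have h3 : ∀ x, ∑ i, v x ^ 2 * mass i (A.state x t) = v x ^ 2 := by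
      intro x
      rw [← Finset.mul_sum, sum_mass, rip_state_self, mul_one]
    calc ∑ e : (V → Bool) × V, ∑ u, (if e.1 u ≠ flipS {e.2} e.1 u then
      (if f e.1 ≠ f (flipS {e.2} e.1) then v e.1 else 0) ^ 2 * mass u (A.state e.1 t) +
        v (flipS {e.2} e.1) ^ 2 * mass u (A.state (flipS {e.2} e.1) t) else 0)
        ≤ ∑ e : (V → Bool) × V, (v e.1 ^ 2 * mass e.2 (A.state e.1 t) +
          v (flipS {e.2} e.1) ^ 2 * mass e.2 (A.state (flipS {e.2} e.1) t)) := by
          refine Finset.sum_le_sum fun e _ => ?_
          simp only [flipS_single_ne]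
          rw [Finset.sum_ite_eq' Finset.univ e.2, if_pos (Finset.mem_univ _)]
          refine add_le_add ?_ (le_refl _)
          refine mul_le_mul_of_nonneg_right ?_ (mass_nonneg _ _)
          split_ifs
          · exact le_refl _
          · rw [zero_pow two_ne_zero]
            positivity
      _ = ∑ x, ∑ i, v x ^ 2 * mass i (A.state x t) +
          ∑ i, ∑ x, v (flipS {i} x) ^ 2 * mass i (A.state (flipS {i} x) t) := by
          rw [Finset.sum_add_distrib, Fintype.sum_prod_type, Fintype.sum_prod_type]
          rw [Finset.sum_comm (f := fun x i =>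
            v (flipS {i} x) ^ 2 * mass i (A.state (flipS {i} x) t))]
      _ = ∑ x, ∑ i, v x ^ 2 * mass i (A.state x t) +
          ∑ i, ∑ x, v x ^ 2 * mass i (A.state x t) := by
          congr 1
          refine Finset.sum_congr rfl fun i _ => ?_
          exact Equiv.sum_comp (flipEquiv ({i} : Finset V))
            (fun x => v x ^ 2 * mass i (A.state x t))
      _ = 2 * ∑ x, v x ^ 2 := by
          rw [Finset.sum_comm (f := fun i x => v x ^ 2 * mass i (A.state x t)), two_mul]
          simp only [h3]
  have h4 : (1 / 40 : ℝ) * sensForm f v ≤ T * (2 * ∑ x, v x ^ 2) := by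
    refine h.trans ?_
    refine (Finset.sum_le_card_nsmul _ _ _ (fun t _ => h2 t)).trans ?_
    simp
  linarith

end P362
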