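import Vale.Agent.Lib.P362.Upper.U2
import Vale.Agent.Lib.P362.Upper.U3
import Vale.Agent.Lib.P362.Upper.U4

/-! P362, upper bound: assembly of `R ≤ D ≤ 40960000 Q^4`. -/

namespace P362

/-- degree bound: `deg ≤ 6400 T^2` -/
theorem deg_le (hH : PartUH) {V : Type} [Fintype V] [DecidableEq V] {f : (V → Bool) → Bool} {T : ℕ}
    (hq : QuantComputes T f) (S : Finset V) (x : V → Bool) (hS : altSum f S x ≠ 0) :
    S.card ≤ 6400 * T ^ 2 := by
  obtain ⟨v, hv, hpos, hle⟩ := partU3 hH V f S x hS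
  have h4 := partU4 V f T v hq hv
  have h5 : Real.sqrt S.card * ∑ x, v x ^ 2 ≤ 80 * T * ∑ x, v x ^ 2 := hle.trans h4
  have h6 : Real.sqrt S.card ≤ 80 * T := le_of_mul_le_mul_right h5 hpos
  have h7 : (S.card : ℝ) ≤ (80 * T) ^ 2 := (Real.sqrt_le_left (by positivity)).1 h6
  have h8 : (S.card : ℝ) ≤ 6400 * (T : ℝ) ^ 2 := by
    refine h7.trans_eq ?_
    ring
  exact_mod_cast h8

/-- `D ≤ 40960000 Q^4` -/
theorem upper_tree (h1 : PartU1) (hH : PartUH) {V : Type} [Fintype V] [DecidableEq V]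
    {f : (V → Bool) → Bool} {T : ℕ} (hq : QuantComputes T f) :
    ∃ t : DT V Bool, (∀ x, t.eval x = f x) ∧ t.depth ≤ 40960000 * T ^ 4 := by
  obtain ⟨t, ht, hd⟩ := h1 V f (6400 * T ^ 2) (6400 * T ^ 2) (deg_le hH hq)
    (fun x k hk => partU2 V f T x k hq hk)
  refine ⟨t, ht, hd.trans_eq ?_⟩
  ring

theorem randComputes_of_tree {V : Type} {f : (V → Bool) → Bool} (t : DT V Bool)
    (ht : ∀ x, t.eval x = f x) {T : ℕ} (hT : t.depth ≤ T) : RandComputes T f := by
  classical
  refine ⟨PMF.pure t, ?_, fun x => ?_⟩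
  · intro t' ht'
    rw [PMF.support_pure, Set.mem_singleton_iff] at ht'
    rw [ht']
    exact hT
  · have hm : t ∈ {t : DT V Bool | t.eval x = f x} := ht x
    rw [PMF.toOuterMeasure_pure_apply, if_pos hm]
    have : (2 / 3 : ENNReal) ≤ 1 := by
      rw [ENNReal.div_le_iff (by norm_num) (by norm_num)]
      norm_num
    exact this

/-- a quantum algorithm with `T` queries gives a randomized (indeed deterministic) one with
`40960000 T^4` queries -/
theorem upper_rand (h1 : PartU1) (hH : PartUH) {V : Type} [Fintype V] [DecidableEq V]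
    {f : (V → Bool) → Bool} {T : ℕ} (hq : QuantComputes T f) :
    RandComputes (40960000 * T ^ 4) f := by
  obtain ⟨t, ht, hd⟩ := upper_tree h1 hH hq
  exact randComputes_of_tree t ht hd

/-- `R ≤ 40960000 Q^4` -/
theorem RQ_le (h1 : PartU1) (hH : PartUH) {V : Type} [Fintype V] [DecidableEq V]
    {f : (V → Bool) → Bool} (hq : ∃ T, QuantComputes T f) : RQ f ≤ 40960000 * QQ f ^ 4 :=
  Nat.sInf_le (upper_rand h1 hH (Nat.sInf_mem hq))

end P362
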