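import Vale.Agent.Lib.P362.Upper.Stmt

/-! P362, upper bound: the adversary method (parts U2 and U4). -/

namespace P362

open Finset

section Vec

/-- real inner product of amplitude vectors -/
noncomputable def rip {P : Type} [Fintype P] (a b : P → ℂ) : ℝ := (dotProduct (star b) a).re

theorem rip_def {P : Type} [Fintype P] (a b : P → ℂ) :
    rip a b = ∑ p, (star (b p) * a p).re := by
  simp only [rip, dotProduct, Complex.re_sum, Pi.star_apply]

theorem re_star_mul_self (z : ℂ) : (star z * z).re = ‖z‖ ^ 2 := by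
  rw [← Complex.normSq_eq_norm_sq, Complex.normSq_apply]
  simp

theorem rip_self {P : Type} [Fintype P] (a : P → ℂ) : rip a a = ∑ p, ‖a p‖ ^ 2 := by
  rw [rip_def]
  exact Finset.sum_congr rfl fun p _ => re_star_mul_self _

theorem rip_mulVec {P : Type} [Fintype P] [DecidableEq P] {U : Matrix P P ℂ}
    (hU : U ∈ Matrix.unitaryGroup P ℂ) (a b : P → ℂ) :
    rip (U.mulVec a) (U.mulVec b) = rip a b := by
  have h : star U * U = 1 := (Matrix.mem_unitaryGroup_iff').1 hU
  unfold rip
  rw [Matrix.star_mulVec, ← Matrix.dotProduct_mulVec, Matrix.mulVec_mulVec,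
    ← Matrix.star_eq_conjTranspose, h, Matrix.one_mulVec]

theorem two_mul_re_le (z w : ℂ) (α β : ℝ) :
    |α * β * (star w * z).re| ≤ (α ^ 2 * ‖z‖ ^ 2 + β ^ 2 * ‖w‖ ^ 2) / 2 := by
  have h1 : |(star w * z).re| ≤ ‖w‖ * ‖z‖ := by
    refine (Complex.abs_re_le_norm _).trans ?_
    rw [norm_mul, norm_star]
  have h2 : |α * β * (star w * z).re| ≤ |α| * |β| * (‖w‖ * ‖z‖) := by
    rw [abs_mul, abs_mul]
    exact mul_le_mul_of_nonneg_left h1 (by positivity)
  have h3 : 0 ≤ (|α| * ‖z‖ - |β| * ‖w‖) ^ 2 := sq_nonneg _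
  have h4 : |α| ^ 2 = α ^ 2 := sq_abs α
  have h5 : |β| ^ 2 = β ^ 2 := sq_abs β
  nlinarith [h2, h3, h4, h5]

variable {V W : Type} [Fintype V] [DecidableEq V] [Fintype W]

/-- the part of the inner product at the query register `v` -/
noncomputable def loc (v : V) (a b : V × Bool × W → ℂ) : ℝ :=
  ∑ c : Bool, ∑ w : W, (star (b (v, c, w)) * a (v, c, w)).re

/-- query mass at `v` -/
noncomputable def mass (v : V) (a : V × Bool × W → ℂ) : ℝ :=
  ∑ c : Bool, ∑ w : W, ‖a (v, c, w)‖ ^ 2

theorem mass_nonneg (v : V) (a : V × Bool × W → ℂ) : 0 ≤ mass v a := by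
  unfold mass
  positivity

omit [DecidableEq V] in
theorem rip_eq (a b : V × Bool × W → ℂ) : rip a b = ∑ v, loc v a b := by
  rw [rip_def, Fintype.sum_prod_type]
  refine Finset.sum_congr rfl fun v _ => ?_
  rw [Fintype.sum_prod_type]
  rfl

omit [DecidableEq V] in
theorem sum_mass (a : V × Bool × W → ℂ) : ∑ v, mass v a = rip a a := by
  rw [rip_self, Fintype.sum_prod_type]
  refine Finset.sum_congr rfl fun v _ => ?_
  rw [Fintype.sum_prod_type]
  rfl

theorem sum_bool_xor (g : Bool → ℝ) (c : Bool) : ∑ b : Bool, g (xor b c) = ∑ b : Bool, g b := by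
  cases c <;> simp [add_comm]

omit [Fintype V] [DecidableEq V] in
theorem loc_oracle {x y : V → Bool} {v : V} (h : x v = y v) (a b : V × Bool × W → ℂ) :
    loc v (oracle x a) (oracle y b) = loc v a b := by
  unfold loc oracle
  rw [← sum_bool_xor (fun c => ∑ w : W, (star (b (v, c, w)) * a (v, c, w)).re) (x v)]
  simp only [h]

omit [Fintype V] [DecidableEq V] in
theorem mass_oracle (x : V → Bool) (v : V) (a : V × Bool × W → ℂ) :
    mass v (oracle x a) = mass v a := by
  unfold mass oracle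
  rw [← sum_bool_xor (fun c => ∑ w : W, ‖a (v, c, w)‖ ^ 2) (x v)]

omit [Fintype V] [DecidableEq V] in
theorem loc_le (v : V) (a b : V × Bool × W → ℂ) (α β : ℝ) :
    |α * β * loc v a b| ≤ (α ^ 2 * mass v a + β ^ 2 * mass v b) / 2 := by
  unfold loc mass
  rw [Finset.mul_sum]
  refine (Finset.abs_sum_le_sum_abs _ _).trans ?_
  have : (α ^ 2 * ∑ c : Bool, ∑ w : W, ‖a (v, c, w)‖ ^ 2 +
      β ^ 2 * ∑ c : Bool, ∑ w : W, ‖b (v, c, w)‖ ^ 2) / 2 =
      ∑ c : Bool, ∑ w : W, (α ^ 2 * ‖a (v, c, w)‖ ^ 2 + β ^ 2 * ‖b (v, c, w)‖ ^ 2) / 2 := by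
    simp only [Finset.mul_sum, ← Finset.sum_add_distrib, Finset.sum_div]
  rw [this]
  refine Finset.sum_le_sum fun c _ => ?_
  rw [Finset.mul_sum]
  refine (Finset.abs_sum_le_sum_abs _ _).trans ?_
  exact Finset.sum_le_sum fun w _ => two_mul_re_le _ _ _ _

theorem rip_step (x y : V → Bool) (a b : V × Bool × W → ℂ) (α β : ℝ) :
    α * β * (rip a b - rip (oracle x a) (oracle y b)) ≤
      ∑ v, if x v ≠ y v then α ^ 2 * mass v a + β ^ 2 * mass v b else 0 := by
  rw [rip_eq, rip_eq, ← Finset.sum_sub_distrib, Finset.mul_sum]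
  refine Finset.sum_le_sum fun v _ => ?_
  by_cases h : x v = y v
  · rw [loc_oracle h, sub_self, mul_zero, if_neg (by simpa using h)]
  · rw [if_pos (by simpa using h)]
    have h1 := loc_le v a b α β
    have h2 := loc_le v (oracle x a) (oracle y b) α β
    rw [mass_oracle, mass_oracle] at h2
    have h3 := (abs_le.1 h1).2
    have h4 := (abs_le.1 h2).1
    rw [mul_sub]
    linarith

end Vec

section Alg

variable {V : Type} [Fintype V] [DecidableEq V] {T : ℕ}

theorem rip_state_succ {R : Type} (A : QAlg V R T) (x y : V → Bool) (t : ℕ) :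
    rip (A.state x (t + 1)) (A.state y (t + 1)) =
      rip (oracle x (A.state x t)) (oracle y (A.state y t)) := by
  rw [QAlg.state, QAlg.state]
  exact rip_mulVec (A.unitary _) _ _

theorem rip_state_zero {R : Type} (A : QAlg V R T) (x y : V → Bool) :
    rip (A.state x 0) (A.state y 0) = 1 := by
  rw [QAlg.state, QAlg.state, rip_mulVec (A.unitary _), rip_self, A.init_norm]

theorem rip_state_self {R : Type} (A : QAlg V R T) (x : V → Bool) (t : ℕ) :
    rip (A.state x t) (A.state x t) = 1 := by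
  induction t with
  | zero => exact rip_state_zero A x x
  | succ t ih =>
    rw [rip_state_succ, ← sum_mass]
    rw [← sum_mass] at ih
    rw [← ih]
    exact Finset.sum_congr rfl fun v _ => mass_oracle _ _ _

theorem rip_final (A : QAlg V Bool T) {f : (V → Bool) → Bool}
    (hA : ∀ x, 2 / 3 ≤ A.prob x (f x)) {x y : V → Bool} (hxy : f x ≠ f y) :
    rip (A.state x T) (A.state y T) ≤ 1 - 1 / 40 := by
  have hx := hA x
  have hy := hA y
  have h1 := rip_state_self A x T
  have h2 := rip_state_self A y T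
  rw [rip_self] at h1 h2
  unfold QAlg.prob at hx hy
  have hy' : ∑ p, (if A.out p = f x then ‖A.state y T p‖ ^ 2 else 0) ≤ 1 / 3 := by
    have : ∑ p, (if A.out p = f x then ‖A.state y T p‖ ^ 2 else 0) +
        ∑ p, (if A.out p = f y then ‖A.state y T p‖ ^ 2 else 0) = 1 := by
      rw [← h2, ← Finset.sum_add_distrib]
      refine Finset.sum_congr rfl fun p _ => ?_
      by_cases h : A.out p = f x
      · rw [if_pos h, if_neg (fun h' => hxy (h.symm.trans h')), add_zero]
      · have h' : A.out p = f y := by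
          revert h hxy
          cases A.out p <;> cases f x <;> cases f y <;> simp
        rw [if_neg h, if_pos h', zero_add]
    linarith
  have key : rip (A.state x T) (A.state y T) ≤
      ∑ p, ((10 / 7 * ‖A.state x T p‖ ^ 2 + 7 / 10 * ‖A.state y T p‖ ^ 2) / 2 -
        51 / 140 * (if A.out p = f x then ‖A.state x T p‖ ^ 2 else 0) +
        51 / 140 * (if A.out p = f x then ‖A.state y T p‖ ^ 2 else 0)) := by
    rw [rip_def]
    refine Finset.sum_le_sum fun p _ => ?_
    have h3 : (star (A.state y T p) * A.state x T p).re ≤ ‖A.state y T p‖ * ‖A.state x T p‖ := by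
      refine (Complex.re_le_norm _).trans ?_
      rw [norm_mul, norm_star]
    split_ifs
    · nlinarith [h3, sq_nonneg (7 * ‖A.state x T p‖ - 10 * ‖A.state y T p‖)]
    · nlinarith [h3, sq_nonneg (10 * ‖A.state x T p‖ - 7 * ‖A.state y T p‖)]
  rw [Finset.sum_add_distrib, Finset.sum_sub_distrib, ← Finset.sum_div, Finset.sum_add_distrib,
    ← Finset.mul_sum, ← Finset.mul_sum, ← Finset.mul_sum, ← Finset.mul_sum, h1, h2] at key
  linarith

/-- the adversary bound -/
theorem adversary (A : QAlg V Bool T) {f : (V → Bool) → Bool}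
    (hA : ∀ x, 2 / 3 ≤ A.prob x (f x)) {E : Type} [Fintype E] (X Y : E → V → Bool)
    (α β : E → ℝ) (hα : ∀ e, 0 ≤ α e) (hβ : ∀ e, 0 ≤ β e)
    (h0 : ∀ e, f (X e) = f (Y e) → α e = 0) :
    (1 / 40) * ∑ e, α e * β e ≤ ∑ t ∈ range T, ∑ e, ∑ v,
      if X e v ≠ Y e v then
        α e ^ 2 * mass v (A.state (X e) t) + β e ^ 2 * mass v (A.state (Y e) t) else 0 := by
  have hstep : ∀ t, ∑ e, α e * β e -
      ∑ e, α e * β e * rip (A.state (X e) t) (A.state (Y e) t) ≤
      ∑ s ∈ range t, ∑ e, ∑ v, if X e v ≠ Y e v then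
        α e ^ 2 * mass v (A.state (X e) s) + β e ^ 2 * mass v (A.state (Y e) s) else 0 := by
    intro t
    induction t with
    | zero => simp [rip_state_zero]
    | succ t ih =>
      rw [Finset.sum_range_succ]
      have h1 : ∑ e, α e * β e * rip (A.state (X e) t) (A.state (Y e) t) -
          ∑ e, α e * β e * rip (A.state (X e) (t + 1)) (A.state (Y e) (t + 1)) ≤
          ∑ e, ∑ v, if X e v ≠ Y e v then
            α e ^ 2 * mass v (A.state (X e) t) + β e ^ 2 * mass v (A.state (Y e) t) else 0 := by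
        rw [← Finset.sum_sub_distrib]
        refine Finset.sum_le_sum fun e _ => ?_
        rw [rip_state_succ, ← mul_sub]
        exact rip_step _ _ _ _ _ _
      linarith
  refine le_trans ?_ (hstep T)
  rw [Finset.mul_sum, ← Finset.sum_sub_distrib]
  refine Finset.sum_le_sum fun e _ => ?_
  by_cases h : f (X e) = f (Y e)
  · simp [h0 e h]
  · have h1 := rip_final A hA h
    have h2 : 0 ≤ α e * β e := mul_nonneg (hα e) (hβ e)
    nlinarith

end Alg

end P362
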