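import Vale.Agent.Lib.P362.Defs

/-! P362, upper bound `R ≤ C Q^4`: statements of the parts. -/

namespace P362

/-- flip the bits in `A` -/
def flipS {V : Type} [DecidableEq V] (A : Finset V) (x : V → Bool) : V → Bool :=
  fun v => xor (x v) (decide (v ∈ A))

/-- alternating sum of `f` over the subcube through `x` in the directions `S` -/
def altSum {V : Type} [DecidableEq V] (f : (V → Bool) → Bool) (S : Finset V) (x : V → Bool) : ℤ :=
  ∑ A ∈ S.powerset, (-1) ^ A.card * (if f (flipS A x) then 1 else 0)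

/-- `f` has `k` pairwise disjoint sensitive blocks at `x` -/
def BlockSens {V : Type} [DecidableEq V] (f : (V → Bool) → Bool) (x : V → Bool) (k : ℕ) : Prop :=
  ∃ B : Fin k → Finset V, (∀ i j, i ≠ j → Disjoint (B i) (B j)) ∧ ∀ i, f (flipS (B i) x) ≠ f x

/-- the quadratic form of the sensitivity graph -/
noncomputable def sensForm {V : Type} [Fintype V] [DecidableEq V] (f : (V → Bool) → Bool)
    (v : (V → Bool) → ℝ) : ℝ :=
  ∑ x, ∑ i : V, if f x ≠ f (flipS {i} x) then v x * v (flipS {i} x) else 0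

/-- (U1) `D ≤ bs * deg` (Midrijanis): at most `s` rounds, each querying the variables of a
monomial of maximal degree of the restricted function -/
def PartU1 : Prop :=
  ∀ (V : Type) [Fintype V] [DecidableEq V] (f : (V → Bool) → Bool) (d s : ℕ),
    (∀ S x, altSum f S x ≠ 0 → S.card ≤ d) → (∀ x k, BlockSens f x k → k ≤ s) →
    ∃ t : DT V Bool, (∀ x, t.eval x = f x) ∧ t.depth ≤ s * d

/-- (U2) `bs ≤ 6400 T^2` (adversary / hybrid argument) -/
def PartU2 : Prop :=
  ∀ (V : Type) [Fintype V] [DecidableEq V] (f : (V → Bool) → Bool) (T : ℕ) (x : V → Bool) (k : ℕ),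
    QuantComputes T f → BlockSens f x k → k ≤ 6400 * T ^ 2

/-- (UH) Huang: a set `H` of more than half of the vertices of the cube `K → Bool` carries a
nonnegative vector with `v^T A v ≥ √|K| v^T v` -/
def PartUH : Prop :=
  ∀ (K : Type) [Fintype K] [DecidableEq K] (H : Finset (K → Bool)),
    2 ^ Fintype.card K < 2 * H.card →
    ∃ v : (K → Bool) → ℝ, (∀ x, 0 ≤ v x) ∧ (∀ x, x ∉ H → v x = 0) ∧ 0 < ∑ x, v x ^ 2 ∧
      Real.sqrt (Fintype.card K) * ∑ x, v x ^ 2 ≤ ∑ x, ∑ i : K, v x * v (flipS {i} x)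

/-- (U3) from (UH), by the trick of Gotsman and Linial -/
def PartU3 : Prop :=
  ∀ (V : Type) [Fintype V] [DecidableEq V] (f : (V → Bool) → Bool) (S : Finset V) (x : V → Bool),
    altSum f S x ≠ 0 →
    ∃ v : (V → Bool) → ℝ, (∀ x, 0 ≤ v x) ∧ 0 < ∑ x, v x ^ 2 ∧
      Real.sqrt S.card * ∑ x, v x ^ 2 ≤ sensForm f v

/-- (U4) the spectral adversary bound for the sensitivity graph -/
def PartU4 : Prop :=
  ∀ (V : Type) [Fintype V] [DecidableEq V] (f : (V → Bool) → Bool) (T : ℕ)
    (v : (V → Bool) → ℝ), QuantComputes T f → (∀ x, 0 ≤ v x) →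
    sensForm f v ≤ 80 * T * ∑ x, v x ^ 2

end P362
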