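import Vale.Agent.Lib.P362.Upper.Quant

/-! P362, upper bound: `bs ≤ 6400 T^2` (part U2). -/

namespace P362

open Finset

theorem partU2 : PartU2 := by
  intro V _ _ f T x k hq hb
  obtain ⟨A, hA⟩ := hq
  obtain ⟨B, hdis, hB⟩ := hb
  rcases Nat.eq_zero_or_pos k with hk | hk
  · subst hk
    exact Nat.zero_le _
  have hk' : (0 : ℝ) < k := Nat.cast_pos.2 hk
  set s : ℝ := Real.sqrt k with hs
  have hs0 : 0 < s := Real.sqrt_pos.2 hk'
  have hss : s ^ 2 = k := Real.sq_sqrt hk'.le
  have hne : ∀ (e : Fin k) (u : V), x u ≠ flipS (B e) x u ↔ u ∈ B e := by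
    intro e u
    by_cases h : u ∈ B e <;> simp [flipS, h]
  have h := adversary A hA (E := Fin k) (fun _ => x) (fun e => flipS (B e) x)
    (fun _ => Real.sqrt s) (fun _ => (Real.sqrt s)⁻¹) (fun _ => Real.sqrt_nonneg _)
    (fun _ => inv_nonneg.2 (Real.sqrt_nonneg _)) (fun e he => absurd he.symm (hB e))
  have hsq : Real.sqrt s ≠ 0 := (Real.sqrt_pos.2 hs0).ne'
  have hsq2 : Real.sqrt s ^ 2 = s := Real.sq_sqrt hs0.le
  have hsq3 : (Real.sqrt s)⁻¹ ^ 2 = s⁻¹ := by rw [inv_pow, hsq2]
  simp only [mul_inv_cancel₀ hsq, hne, hsq2, hsq3] at h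
  have h2 : ∀ t, ∑ e : Fin k, ∑ u, (if u ∈ B e then
      s * mass u (A.state x t) + s⁻¹ * mass u (A.state (flipS (B e) x) t) else 0) ≤ 2 * s := by
    intro t
    have h3 : ∑ e : Fin k, ∑ u, (if u ∈ B e then mass u (A.state x t) else 0) ≤ 1 := by
      rw [← rip_state_self A x t, ← sum_mass, Finset.sum_comm]
      refine Finset.sum_le_sum fun u _ => ?_
      by_cases hu : ∃ e, u ∈ B e
      · obtain ⟨e, he⟩ := hu
        rw [Finset.sum_eq_single e]
        · rw [if_pos he]
        · intro e' _ hee
          rw [if_neg]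
          intro h'
          exact (Finset.disjoint_left.1 (hdis e' e hee) h') he
        · intro h'
          exact absurd (Finset.mem_univ e) h'
      · rw [Finset.sum_eq_zero]
        · exact mass_nonneg _ _
        · intro e _
          rw [if_neg]
          intro h'
          exact hu ⟨e, h'⟩
    have h4 : ∑ e : Fin k, ∑ u, (if u ∈ B e then mass u (A.state (flipS (B e) x) t) else 0) ≤
        k := by
      calc _ ≤ ∑ _e : Fin k, (1 : ℝ) := by
            refine Finset.sum_le_sum fun e _ => ?_
            rw [← rip_state_self A (flipS (B e) x) t, ← sum_mass]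
            refine Finset.sum_le_sum fun u _ => ?_
            split_ifs
            · exact le_refl _
            · exact mass_nonneg _ _
        _ = k := by simp
    have h5 : ∑ e : Fin k, ∑ u, (if u ∈ B e then
        s * mass u (A.state x t) + s⁻¹ * mass u (A.state (flipS (B e) x) t) else 0) =
        s * (∑ e : Fin k, ∑ u, (if u ∈ B e then mass u (A.state x t) else 0)) +
        s⁻¹ * (∑ e : Fin k, ∑ u,
          (if u ∈ B e then mass u (A.state (flipS (B e) x) t) else 0)) := by
      simp only [Finset.mul_sum, ← Finset.sum_add_distrib]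
      refine Finset.sum_congr rfl fun e _ => Finset.sum_congr rfl fun u _ => ?_
      split_ifs <;> simp
    rw [h5]
    have h6 : s⁻¹ * k = s := by
      rw [← hss]
      field_simp
    have h7 : s⁻¹ * (∑ e : Fin k, ∑ u,
        (if u ∈ B e then mass u (A.state (flipS (B e) x) t) else 0)) ≤ s := by
      exact (mul_le_mul_of_nonneg_left h4 (inv_nonneg.2 hs0.le)).trans_eq h6
    nlinarith [h3, h7]
  have h8 : (1 / 40 : ℝ) * k ≤ T * (2 * s) := by
    have : (1 / 40 : ℝ) * k = 1 / 40 * ∑ _e : Fin k, (1 : ℝ) := by simp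
    rw [this]
    refine h.trans ?_
    refine (Finset.sum_le_card_nsmul _ _ _ (fun t _ => h2 t)).trans ?_
    simp
  have h9 : s ≤ 80 * T := by
    rw [← hss] at h8
    have : s * s ≤ 80 * T * s := by nlinarith
    exact le_of_mul_le_mul_right this hs0
  have h10 : (k : ℝ) ≤ 6400 * (T : ℝ) ^ 2 := by
    rw [← hss]
    nlinarith [h9, hs0]
  exact_mod_cast h10

end P362
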